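import Vale.Agent.P022D.Loc2.BlkC
import Vale.Agent.P022E.CA.Blk2
import Vale.Agent.P022E.L2.All

namespace Vale.Agent.P022E.Loc2
export Vale.Agent.P022D.Loc2 (
  det_cu dd const_Zc map_cu map_eqc dd_cu uni cu_apply const_eqc IsZc map_uni dd_apply
  exists_isZc blkc cu eqc map_cst X_eq)
end Vale.Agent.P022E.Loc2

namespace Vale.Agent.P022E.Loc2.IsZc
export Vale.Agent.P022D.Loc2.IsZc (
  map)
end Vale.Agent.P022E.Loc2.IsZc
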