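import Vale.Agent.P022D.Loc2.Inf
import Vale.Agent.P022E.Loc2.Defs
import Vale.Agent.P022E.CA.BlkInf
import Vale.Agent.P022E.CA.Cpl

namespace Vale.Agent.P022E.Loc2
export Vale.Agent.P022D.Loc2 (
  mem_max_of_red tr_zero inf2)
end Vale.Agent.P022E.Loc2
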