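import Vale.Agent.P022D.Loc2.Uni
import Vale.Agent.P022E.Loc2.BlkC
import Vale.Agent.P022E.Loc2.Inf
import Vale.Agent.P022E.L2b.Ps
import Vale.Agent.P022E.L2.Ar
import Vale.Agent.P022E.L2.Rel

namespace Vale.Agent.P022E.Loc2
export Vale.Agent.P022D.Loc2 (
  ev_hom cj_one cj ev_mem tn_uni outU two2 red_zero)
end Vale.Agent.P022E.Loc2
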