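import Vale.Agent.P022D.Loc2.Obj
import Vale.Agent.P022E.Loc2.Uni
import Vale.Agent.P022E.Loc2.Dec
import Vale.Agent.P022E.R.Defs

namespace Vale.Agent.P022E.Loc2
export Vale.Agent.P022D.Loc2 (
  goodInf lb beta_res lr lr_det nil_of_res isDec2 good2 good_of_out lr_res lr_apply
  lc_of_open DetOn GoodBlk beta_map conj_sq)
end Vale.Agent.P022E.Loc2

namespace Vale.Agent.P022E.Loc2.GoodBlk
export Vale.Agent.P022D.Loc2.GoodBlk (
  res tan const blk nat van card mk)
end Vale.Agent.P022E.Loc2.GoodBlk
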